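import Vale.Agent.P092.QT.NE.Ne
import Vale.Agent.P092.H515.LatSl

/-!
P092 (helper58), project Q for all amplifications, block [Q-NE-T]: the nonzero smooth field on `ℋ`,
with the source group divided by a finite normal subgroup.
-/

set_option linter.all false

open scoped InnerProductSpace Topology ENNReal
open Filter ContinuousLinearMap MeasureTheory

namespace Vale.Agent.P092.QT.NE

open Vale.Agent.P092.H333.Amp
open Vale.Agent.P092.H739 (Mau)
open Vale.Agent.P092.H761 (PF massT)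
open Vale.Agent.P092.QT.H156.Sm (Frm Smo)
open Vale.Agent.P092.SR (Tri)

section gen

variable {I : Type} [Fintype I] {H : I → Type} [∀ i, Group (H i)]
  [∀ i, TopologicalSpace (H i)] [∀ i, IsTopologicalGroup (H i)] [∀ i, LocallyCompactSpace (H i)]
  [∀ i, SecondCountableTopology (H i)] [∀ i, T2Space (H i)] [∀ i, MeasurableSpace (H i)]
  [∀ i, BorelSpace (H i)] {Γ : Subgroup (∀ i, H i)}
  {κ κ' ℋ : Type} [Fintype κ] [Fintype κ'] [NormedAddCommGroup ℋ] [InnerProductSpace ℂ ℋ]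
  [CompleteSpace ℋ] {V A B : Γ →* (ℋ →L[ℂ] ℋ)} {ξ : κ → ℋ} {ξ' : κ' → ℋ}
  {P : I → Type} [∀ j, Group (P j)]
  [∀ j, TopologicalSpace (P j)] [∀ j, IsTopologicalGroup (P j)]
  [∀ j, LocallyCompactSpace (P j)] [∀ j, SecondCountableTopology (P j)] [∀ j, T2Space (P j)]
  [∀ j, MeasurableSpace (P j)] [∀ j, BorelSpace (P j)]

/-- **[Q-NE-T]** for abstract factors, on `ℋ`. -/
theorem neC_gen (hΓ : H515.IsLattice Γ)
    (hicc : ∀ g : Γ, g ≠ 1 → Set.Infinite {y : Γ | ∃ h, y = h * g * h⁻¹})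
    (hT : Tri V A B ξ) (hT' : Tri A V B ξ') {m : I → ℕ}
    (C : ∀ i, H701.HChain (H i) (m i)) (hm : ∀ i, 0 < m i) (hG : ∀ i, H515.Tgt (H i) (m i))
    (hM : ∀ i, Mau (H i) ((C i).b ⟨0, hm i⟩)) (π : ∀ j, H j →* P j)
    (hπ : ∀ j, Continuous (π j)) (μ : ∀ j, Measure (P j)) [∀ j, (μ j).IsHaarMeasure]
    [∀ j, (μ j).IsMulRightInvariant] (i : I) (hd : DenseRange (ev Γ i)) (Z : Subgroup (H i))
    [Z.Normal] [Finite Z] (hE : ErgC ((QuotientGroup.mk' Z).comp (ev Γ i)) V A B) :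
    ∃ j, NeC ((π j).comp (ev Γ j)) ((QuotientGroup.mk' Z).comp (ev Γ i)) V A B (μ j) := by
  classical
  haveI := hΓ.disc
  letI : MeasurableSpace ((∀ j, H j) ⧸ Γ) := borel _
  haveI : BorelSpace ((∀ j, H j) ⧸ Γ) := ⟨rfl⟩
  haveI : Countable Γ := H790.countable_of_discrete Γ
  obtain ⟨ν, hν1, hν⟩ := H515.IsLattice.exists_prob (Λ := Γ) hΓ
  haveI := hν1
  have htr := fun v hv => H962.tr0 hicc hT hT' v hv
  have hcard : Fintype.card κ ≤ Fintype.card (Multiplicative (ZMod (Fintype.card κ + 1))) := by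
    rw [Fintype.card_multiplicative, ZMod.card]
    omega
  obtain ⟨ω, hF, c, hc, hω⟩ := exists_frm (Q := Multiplicative (ZMod (Fintype.card κ + 1))) hT htr
    hcard
  obtain ⟨j, b, hb, hb0⟩ := ne_gen hν hT (pf_tri hT') htr hF hc hω C hm hG hM π hπ μ i
  obtain ⟨b', hb', hb0'⟩ := QT.H328.exists_smo_quot hF hd Z hb hb0
  exact ⟨j, neC_of_smo (QT.H805.f1_of_erg hF (erg_amp hF hE)) ⟨b', hb', hb0'⟩⟩

end gen

end Vale.Agent.P092.QT.NE
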