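import Vale.Agent.P092.QT.NE.NeC
import Vale.Agent.P092.H333.FinQT
import Vale.Agent.P092.H515.RkFin
import Vale.Agent.P092.H793.Irr

/-!
P092 (helper58), project Q for all amplifications, block [Q-NE-T]: lattices in finite products of
groups `SL_n(k)` over local fields.
-/

set_option linter.all false

open scoped InnerProductSpace Topology ENNReal
open Filter ContinuousLinearMap MeasureTheory

namespace Vale.Agent.P092.QT.NE

open Vale.Agent.P092.H333.Amp
open Vale.Agent.P092.H160 (Ell2)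
open Vale.Agent.P092.H103 (AF)
open Vale.Agent.P092.H962
open Vale.Agent.P092.H971 (pj pjq)
open Vale.Agent.P092.SR (PSLk Tri)

/-- **[Q-NE-T]** for lattices in finite products of groups `SL`. -/
theorem neC_sl {I : Type} [Fintype I] (m : I → ℕ) (k : I → Type)
    [∀ i, NontriviallyNormedField (k i)] [∀ i, ProperSpace (k i)]
    [∀ i, MeasurableSpace (PSLk (m i + 1) (k i))] [∀ i, BorelSpace (PSLk (m i + 1) (k i))]
    (μ : ∀ i, Measure (PSLk (m i + 1) (k i)))
    [∀ i, (μ i).IsHaarMeasure] [∀ i, (μ i).IsMulRightInvariant] (hk : ∀ i, H933.LocK (k i))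
    (hm : ∀ i, 0 < m i)
    (Γ : Subgroup (∀ i, Matrix.SpecialLinearGroup (Fin (m i + 1)) (k i)))
    (hΓ : H515.IsLattice Γ) (hd : ∀ i, DenseRange (pj Γ i))
    (hicc : ∀ g : Γ, g ≠ 1 → Set.Infinite {y : Γ | ∃ h, y = h * g * h⁻¹})
    {κ κ' ℋ : Type} [Fintype κ] [Fintype κ'] [NormedAddCommGroup ℋ] [InnerProductSpace ℂ ℋ]
    [CompleteSpace ℋ] {V A B : Γ →* (ℋ →L[ℂ] ℋ)} {ξ : κ → ℋ} {ξ' : κ' → ℋ}
    (hT : Tri V A B ξ) (hT' : Tri A V B ξ') (i : I) (hE : ErgC (pjq Γ i) V A B) :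
    ∃ j, NeC (pjq Γ j) (pjq Γ i) V A B (μ j) := by
  classical
  let _ : ∀ i, MeasurableSpace (Matrix.SpecialLinearGroup (Fin (m i + 1)) (k i)) := fun i => borel _
  have _ : ∀ i, BorelSpace (Matrix.SpecialLinearGroup (Fin (m i + 1)) (k i)) := fun i => ⟨rfl⟩
  have hL : ∀ i, LocallyCompactSpace (Matrix.SpecialLinearGroup (Fin (m i + 1)) (k i)) := fun i =>
    H264.lc_SL (m i) (k i)
  have hS : ∀ i, SecondCountableTopology (Matrix.SpecialLinearGroup (Fin (m i + 1)) (k i)) :=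
    fun i => H264.sc_SL (m i) (k i)
  have hLP : ∀ i, LocallyCompactSpace (PSLk (m i + 1) (k i)) := fun i => inferInstance
  have hSP : ∀ i, SecondCountableTopology (PSLk (m i + 1) (k i)) := fun i => inferInstance
  have hTP : ∀ i, T2Space (PSLk (m i + 1) (k i)) := fun i => H264.t2_PS (m i) (k i)
  have hfin : Finite (Subgroup.center (Matrix.SpecialLinearGroup (Fin (m i + 1)) (k i))) :=
    H793.finite_center
  exact neC_gen hΓ hicc hT hT' (fun i => H701.slChain (k i) (m i)) hm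
    (fun i => H933.tgt_sl_loc (hk i) (m i)) (fun i => H739.mau_sl (k i) (m i) (hm i))
    (fun j => QuotientGroup.mk' (Subgroup.center (Matrix.SpecialLinearGroup (Fin (m j + 1)) (k j))))
    (fun j => continuous_quotient_mk') μ i (hd i) _ hE

/-- **The block `NeStmtT`**, given ergodicity. -/
theorem neStmtT_of (hE : ErgStmtT) : NeStmtT := by
  intro I _ n k _ _ _ _ μ _ _ hk hn Γ hΓ hd hicc Λ _ _ K _ α hα hΛ i β hβ
  obtain ⟨m, rfl⟩ : ∃ m : I → ℕ, n = fun i => m i + 1 :=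
    ⟨fun i => n i - 1, funext fun i => (Nat.sub_add_cancel (le_trans one_le_two (hn i))).symm⟩
  obtain ⟨m₁, m₂, ξ, hT⟩ := exists_tri hα hα hβ hΛ
  obtain ⟨n₁, n₂, ξ', hT'⟩ := exists_tri' hα hα hβ hΛ
  exact neC_sl m k μ (fun i => H515.locK (hk i)) (fun i => Nat.le_of_succ_le_succ (hn i)) Γ
    ⟨hΓ.disc, hΓ.covol⟩ hd hicc hT hT' i
    (hE I (fun i => m i + 1) k hk hn Γ hΓ hd hicc Λ K α hα hΛ i β hβ)

end Vale.Agent.P092.QT.NE
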