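import Vale.Agent.P092.H333.DblT
import Vale.Agent.P092.H761.EngT
import Vale.Agent.P092.H264.Row

/-!
P092 (helper58), project Q for all amplifications: the masses of `V g ω` on `ℋ ⊗ ℂ^Q` are a
multiple of the masses of the finite Parseval frame of `ℋ`.
-/

set_option linter.all false

open scoped InnerProductSpace Topology
open Filter ContinuousLinearMap

namespace Vale.Agent.P092.QT.NE

open Vale.Agent.P092.H333.Amp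
open Vale.Agent.P092.H538 (ind ind_nonneg ind_le_one abs_ind_le ind_pos ind_neg)
open Vale.Agent.P092.H761 (PF massT)

section sums

variable {Q ℋ ι : Type} [Group Q] [Fintype Q] [Fintype ι] [NormedAddCommGroup ℋ]
  [InnerProductSpace ℂ ℋ] [CompleteSpace ℋ] {ω : KT Q ℋ} {ξ : ι → ℋ} {c : ℝ}

theorem eq_vz (ω : KT Q ℋ) : vz (fun j => ω j) = ω := ext_co fun j => vz_apply _ j

/-- The coordinates of `ω` have the covariance of the frame. -/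
theorem sum_coord (hω : ∀ T : ℋ →L[ℂ] ℋ, ⟪ω, amp T ω⟫_ℂ = (c : ℂ) * ∑ k, ⟪ξ k, T (ξ k)⟫_ℂ)
    (u : ℋ) : ∑ j, ‖⟪ω j, u⟫_ℂ‖ ^ 2 = c * ∑ k, ‖⟪ξ k, u⟫_ℂ‖ ^ 2 := by
  have h1 := hω ((innerSL ℂ u).smulRight u)
  have h2 : ⟪ω, amp ((innerSL ℂ u).smulRight u) ω⟫_ℂ = ((∑ j, ‖⟪ω j, u⟫_ℂ‖ ^ 2 : ℝ) : ℂ) := by
    rw [inner_KT, Complex.ofReal_sum]
    refine Finset.sum_congr rfl fun j _ => ?_
    rw [amp_apply]
    change ⟪ω j, ⟪u, ω j⟫_ℂ • u⟫_ℂ = _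
    rw [inner_smul_right, ← inner_conj_symm u (ω j), mul_comm, Complex.mul_conj,
      Complex.normSq_eq_norm_sq]
  have h3 : ∑ k, ⟪ξ k, ((innerSL ℂ u).smulRight u) (ξ k)⟫_ℂ =
      ((∑ k, ‖⟪ξ k, u⟫_ℂ‖ ^ 2 : ℝ) : ℂ) := by
    rw [Complex.ofReal_sum]
    refine Finset.sum_congr rfl fun k _ => ?_
    change ⟪ξ k, ⟪u, ξ k⟫_ℂ • u⟫_ℂ = _
    rw [inner_smul_right, ← inner_conj_symm u (ξ k), mul_comm, Complex.mul_conj,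
      Complex.normSq_eq_norm_sq]
  rw [h2, h3] at h1
  exact_mod_cast h1

theorem sum_coord2 (hω : ∀ T : ℋ →L[ℂ] ℋ, ⟪ω, amp T ω⟫_ℂ = (c : ℂ) * ∑ k, ⟪ξ k, T (ξ k)⟫_ℂ)
    (S : ℋ →L[ℂ] ℋ) : ∑ i, ∑ j, ‖⟪ω i, S (ω j)⟫_ℂ‖ ^ 2 =
      c ^ 2 * ∑ k, ∑ l, ‖⟪ξ k, S (ξ l)⟫_ℂ‖ ^ 2 := by
  have e1 : ∀ a b : ℋ, ‖⟪a, S b⟫_ℂ‖ = ‖⟪b, adjoint S a⟫_ℂ‖ := fun a b => by
    rw [adjoint_inner_right, norm_inner_symm]
  calc ∑ i, ∑ j, ‖⟪ω i, S (ω j)⟫_ℂ‖ ^ 2 = ∑ j, ∑ i, ‖⟪ω i, S (ω j)⟫_ℂ‖ ^ 2 := Finset.sum_comm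
    _ = ∑ j, c * ∑ k, ‖⟪ξ k, S (ω j)⟫_ℂ‖ ^ 2 :=
        Finset.sum_congr rfl fun j _ => sum_coord hω (S (ω j))
    _ = c * ∑ k, ∑ j, ‖⟪ξ k, S (ω j)⟫_ℂ‖ ^ 2 := by rw [← Finset.mul_sum, Finset.sum_comm]
    _ = c * ∑ k, ∑ j, ‖⟪ω j, adjoint S (ξ k)⟫_ℂ‖ ^ 2 := by simp only [e1]
    _ = c * ∑ k, c * ∑ l, ‖⟪ξ l, adjoint S (ξ k)⟫_ℂ‖ ^ 2 := by
        congr 1
        exact Finset.sum_congr rfl fun k _ => sum_coord hω _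
    _ = c * (c * ∑ k, ∑ l, ‖⟪ξ k, S (ξ l)⟫_ℂ‖ ^ 2) := by rw [← Finset.mul_sum]; simp only [e1]
    _ = _ := by ring

end sums

/-- the two orders of the frame index -/
theorem pf_tri {ι Γ ℋ : Type} [Fintype ι] [Group Γ] [NormedAddCommGroup ℋ]
    [InnerProductSpace ℂ ℋ] [CompleteSpace ℋ] {V R₁ R₂ : Γ →* (ℋ →L[ℂ] ℋ)} {ξ : ι → ℋ}
    (h : SR.Tri V R₁ R₂ ξ) : PF R₁ R₂ ξ := fun η =>
  ((Equiv.prodComm (Γ × Γ) ι).hasSum_iff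
    (f := fun p : ι × Γ × Γ => ‖⟪R₁ p.2.1 (R₂ p.2.2 (ξ p.1)), η⟫_ℂ‖ ^ 2)).2 (h.frame η)

section mass

variable {Γ Q ℋ ι : Type} [Group Γ] [Group Q] [Fintype Q] [Fintype ι] [NormedAddCommGroup ℋ]
  [InnerProductSpace ℂ ℋ] [CompleteSpace ℋ] {V A B : Γ →* (ℋ →L[ℂ] ℋ)} {ω : KT Q ℋ} {ξ : ι → ℋ}
  {c : ℝ}

/-- The sum over the monomial group. -/
theorem sum_fg (hA : ∀ g, adjoint (A g) = A g⁻¹) (hB : ∀ g, adjoint (B g) = B g⁻¹)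
    (h : ∀ g k, A g * B k = B k * A g)
    (hω : ∀ T : ℋ →L[ℂ] ℋ, ⟪ω, amp T ω⟫_ℂ = (c : ℂ) * ∑ k, ⟪ξ k, T (ξ k)⟫_ℂ) (p : Γ × Γ)
    (T : ℋ →L[ℂ] ℋ) : ∑ f : FG Q, ‖⟪rt Q (pr A B h) (p, f) ω, amp T ω⟫_ℂ‖ ^ 2 =
      2 ^ Fintype.card Q * c ^ 2 * ∑ l, ∑ k, ‖⟪A p.1 (B p.2 (ξ k)), T (ξ l)⟫_ℂ‖ ^ 2 := by
  have hadj := adj_pr hA hB h
  have h1 : ∀ f : FG Q, ⟪rt Q (pr A B h) (p, f) ω, amp T ω⟫_ℂ =
      ∑ j, ((f.left j : ℤ) : ℂ) * ⟪pr A B h p (ω (f.right⁻¹ * j)), T (ω j)⟫_ℂ := by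
    intro f
    have h2 := inner_rt (Q := Q) hadj (p, f) (ζ := fun j => ω j) (amp T ω)
    rw [eq_vz] at h2
    rw [h2]
    rfl
  simp_rw [h1]
  rw [sum_FG fun i j => ⟪pr A B h p (ω i), T (ω j)⟫_ℂ, mul_assoc]
  congr 1
  have e1 : ∀ a b : ℋ, ⟪pr A B h p a, T b⟫_ℂ = ⟪a, (adjoint (pr A B h p) * T) b⟫_ℂ := fun a b => by
    change _ = ⟪a, adjoint (pr A B h p) (T b)⟫_ℂ
    rw [adjoint_inner_right]
  simp_rw [e1]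
  rw [sum_coord2 hω, Finset.sum_comm]
  congr 1
  refine Finset.sum_congr rfl fun l _ => Finset.sum_congr rfl fun k _ => ?_
  rw [← e1]
  rfl

/-- **The masses.** -/
theorem ms_eq (hT : SR.Tri V A B ξ) (hF : QT.H156.Sm.Frm (rt Q (pr A B hT.comm₁₂)) (av Q V) ω)
    (hω : ∀ T : ℋ →L[ℂ] ℋ, ⟪ω, amp T ω⟫_ℂ = (c : ℂ) * ∑ k, ⟪ξ k, T (ξ k)⟫_ℂ) (v : Γ)
    (P : Γ → Prop) :
    H264.ms (rt Q (pr A B hT.comm₁₂)) (av Q V) ω (fun x => P (lf Γ Q false x)) v =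
      2 ^ Fintype.card Q * c ^ 2 * massT V A B ξ v P := by
  have h0 : Summable fun x : XG Γ Q => ind (fun x => P (lf Γ Q false x)) x *
      ‖⟪rt Q (pr A B hT.comm₁₂) x ω, av Q V v ω⟫_ℂ‖ ^ 2 := by
    refine Summable.of_norm_bounded (hF.reg.summable_coeff (av Q V v ω)) fun x => ?_
    rw [norm_mul, Real.norm_eq_abs, Real.norm_of_nonneg (by positivity)]
    exact mul_le_of_le_one_left (by positivity) (abs_ind_le _ _)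
  have h1 : H264.ms (rt Q (pr A B hT.comm₁₂)) (av Q V) ω (fun x => P (lf Γ Q false x)) v =
      ∑' p : Γ × Γ, ∑' f : FG Q, ind (fun x => P (lf Γ Q false x)) (p, f) *
        ‖⟪rt Q (pr A B hT.comm₁₂) (p, f) ω, av Q V v ω⟫_ℂ‖ ^ 2 := h0.tsum_prod
  have h2 : ∀ p : Γ × Γ, ∑' f : FG Q, ind (fun x : XG Γ Q => P (lf Γ Q false x)) (p, f) *
        ‖⟪rt Q (pr A B hT.comm₁₂) (p, f) ω, av Q V v ω⟫_ℂ‖ ^ 2 =
      2 ^ Fintype.card Q * c ^ 2 * ∑ l, ∑ k, ind (fun p : Γ × Γ => P p.1) p *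
        ‖⟪A p.1 (B p.2 (ξ k)), V v (ξ l)⟫_ℂ‖ ^ 2 := by
    intro p
    have h3 : ∀ f : FG Q, ind (fun x : XG Γ Q => P (lf Γ Q false x)) (p, f) =
        ind (fun p : Γ × Γ => P p.1) p := by
      intro f
      by_cases hP : P p.1
      · rw [ind_pos (P := fun p : Γ × Γ => P p.1) hP,
          ind_pos (P := fun x : XG Γ Q => P (lf Γ Q false x)) (x := (p, f)) hP]
      · rw [ind_neg (P := fun p : Γ × Γ => P p.1) hP,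
          ind_neg (P := fun x : XG Γ Q => P (lf Γ Q false x)) (x := (p, f)) hP]
    rw [tsum_fintype]
    simp_rw [h3]
    rw [← Finset.mul_sum]
    change _ * ∑ f : FG Q, ‖⟪rt Q (pr A B hT.comm₁₂) (p, f) ω, amp (V v) ω⟫_ℂ‖ ^ 2 = _
    rw [sum_fg hT.adj₁ hT.adj₂ hT.comm₁₂ hω p (V v)]
    simp_rw [← Finset.mul_sum]
    ring
  rw [h1]
  simp_rw [h2]
  rw [tsum_mul_left]
  congr 1
  have hs : ∀ l k, Summable fun p : Γ × Γ => ind (fun p : Γ × Γ => P p.1) p *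
      ‖⟪A p.1 (B p.2 (ξ k)), V v (ξ l)⟫_ℂ‖ ^ 2 := by
    intro l k
    have h4 := (pf_tri hT (V v (ξ l))).summable
    have h5 : Summable fun p : Γ × Γ => ‖⟪A p.1 (B p.2 (ξ k)), V v (ξ l)⟫_ℂ‖ ^ 2 :=
      h4.comp_injective (i := fun p : Γ × Γ => (p, k)) fun a b hab => congrArg Prod.fst hab
    refine Summable.of_norm_bounded h5 fun x => ?_
    rw [norm_mul, Real.norm_eq_abs, Real.norm_of_nonneg (by positivity)]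
    exact mul_le_of_le_one_left (by positivity) (abs_ind_le _ _)
  rw [Summable.tsum_finsetSum fun l _ => summable_sum fun k _ => hs l k, massT]
  refine Finset.sum_congr rfl fun l _ => ?_
  have h6 : Summable fun x : (Γ × Γ) × ι => ind (fun x : (Γ × Γ) × ι => P x.1.1) x *
      ‖⟪A x.1.1 (B x.1.2 (ξ x.2)), V v (ξ l)⟫_ℂ‖ ^ 2 := by
    refine Summable.of_norm_bounded (pf_tri hT (V v (ξ l))).summable fun x => ?_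
    rw [norm_mul, Real.norm_eq_abs, Real.norm_of_nonneg (by positivity)]
    exact mul_le_of_le_one_left (by positivity) (abs_ind_le _ _)
  rw [h6.tsum_prod]
  refine tsum_congr fun p => ?_
  rw [tsum_fintype]
  refine Finset.sum_congr rfl fun k _ => ?_
  congr 1

end mass

end Vale.Agent.P092.QT.NE
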