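import Vale.Agent.P092.QT.H264.S2
import Vale.Agent.P092.QT.H328.Psl
import Vale.Agent.P092.QT.NE.Mass
import Vale.Agent.P092.H333.NeQ
import Vale.Agent.P092.H739.Mau
import Vale.Agent.P092.H793.EngR

/-!
P092 (helper58), project Q for all amplifications, block [Q-NE-T]: for lattices in finite products,
for each source place there is a target place with a nonzero smooth field for the first leg.
-/

set_option linter.all false

open scoped InnerProductSpace Topology ENNReal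
open Filter ContinuousLinearMap MeasureTheory

namespace Vale.Agent.P092.QT.NE

open Vale.Agent.P092.H333.Amp
open Vale.Agent.P092.H739 (Mau exists_piChain)
open Vale.Agent.P092.H761 (PF massT)
open Vale.Agent.P092.QT.H156.Sm (Frm Smo)
open Vale.Agent.P092.SR (Tri)

section spl

variable {I : Type} [DecidableEq I] (H : I → Type) [∀ i, Group (H i)]

/-- one factor and the others -/
def spl (i : I) : H i × (∀ j : {j // j ≠ i}, H j) ≃* ∀ j, H j :=
  MulEquiv.symm { Equiv.piSplitAt i H with map_mul' := fun x y => rfl }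

variable {H}

theorem spl_self (i : I) (x : H i × (∀ j : {j // j ≠ i}, H j)) : spl H i x i = x.1 :=
  congrArg Prod.fst ((spl H i).symm_apply_apply x)

theorem spl_ne {i j : I} (h : j ≠ i) (x : H i × (∀ j : {j // j ≠ i}, H j)) :
    spl H i x j = x.2 ⟨j, h⟩ :=
  congrFun (congrArg Prod.snd ((spl H i).symm_apply_apply x)) ⟨j, h⟩

theorem continuous_spl [∀ i, TopologicalSpace (H i)] (i : I) : Continuous (spl H i) := by
  refine continuous_pi fun j => ?_
  by_cases h : j = i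
  · subst h
    exact continuous_fst.congr fun x => (spl_self j x).symm
  · exact (((continuous_apply (⟨j, h⟩ : {j // j ≠ i})).comp continuous_snd).congr fun x =>
      (spl_ne h x).symm)

end spl

section gen

variable {I : Type} [Fintype I] {H : I → Type} [∀ i, Group (H i)]
  [∀ i, TopologicalSpace (H i)] [∀ i, IsTopologicalGroup (H i)] [∀ i, LocallyCompactSpace (H i)]
  [∀ i, SecondCountableTopology (H i)] [∀ i, T2Space (H i)] [∀ i, MeasurableSpace (H i)]
  [∀ i, BorelSpace (H i)] {Γ : Subgroup (∀ i, H i)}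

/-- the projections -/
abbrev ev (Γ : Subgroup (∀ i, H i)) (i : I) : Γ →* H i := (Pi.evalMonoidHom H i).comp Γ.subtype

/-- **[Q-NE-T]** for abstract factors. -/
theorem ne_gen [DiscreteTopology Γ] [MeasurableSpace ((∀ i, H i) ⧸ Γ)]
    [BorelSpace ((∀ i, H i) ⧸ Γ)] {ν : Measure ((∀ i, H i) ⧸ Γ)} [IsProbabilityMeasure ν]
    (hν : ∀ g : ∀ i, H i, ν.map (fun x => g • x) = ν)
    {κ κ' ℋ : Type} [Fintype κ] [Fintype κ'] [NormedAddCommGroup ℋ] [InnerProductSpace ℂ ℋ]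
    [CompleteSpace ℋ] {V A B : Γ →* (ℋ →L[ℂ] ℋ)} {ξ : κ → ℋ} {ξ' : κ' → ℋ}
    (hT : Tri V A B ξ) (h' : PF V B ξ')
    (htr : ∀ v, v ≠ 1 → ∑ k, ⟪ξ k, V v (ξ k)⟫_ℂ = 0) {Q : Type} [Group Q] [Fintype Q]
    {ω : KT Q ℋ} (hF : Frm (rt Q (pr A B hT.comm₁₂)) (av Q V) ω) {c : ℝ} (hc : 0 < c)
    (hω : ∀ T : ℋ →L[ℂ] ℋ, ⟪ω, amp T ω⟫_ℂ = (c : ℂ) * ∑ k, ⟪ξ k, T (ξ k)⟫_ℂ) {m : I → ℕ}
    (C : ∀ i, H701.HChain (H i) (m i)) (hm : ∀ i, 0 < m i) (hG : ∀ i, H515.Tgt (H i) (m i))
    (hM : ∀ i, Mau (H i) ((C i).b ⟨0, hm i⟩)) {P : I → Type} [∀ j, Group (P j)]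
    [∀ j, TopologicalSpace (P j)] [∀ j, IsTopologicalGroup (P j)]
    [∀ j, LocallyCompactSpace (P j)] [∀ j, SecondCountableTopology (P j)] [∀ j, T2Space (P j)]
    [∀ j, MeasurableSpace (P j)] [∀ j, BorelSpace (P j)] (π : ∀ j, H j →* P j)
    (hπ : ∀ j, Continuous (π j)) (μ : ∀ j, Measure (P j)) [∀ j, (μ j).IsHaarMeasure]
    [∀ j, (μ j).IsMulRightInvariant] (i : I) :
    ∃ j, ∃ b, Smo (((π j).comp (ev Γ j)).comp (lf Γ Q false)) (ev Γ i)
      (rt Q (pr A B hT.comm₁₂)) (av Q V) ω (μ j) b ∧ b ≠ 0 := by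
  classical
  haveI : Countable Γ := H790.countable_of_discrete Γ
  haveI : Nonempty I := ⟨i⟩
  have h := pf_tri hT
  obtain ⟨D, hD⟩ := exists_piChain C hm (Finset.univ.erase i)
  have hI : 0 < Fintype.card I := Fintype.card_pos
  have hcard : (Finset.univ.erase i).card < Fintype.card I := by
    rw [Finset.card_erase_of_mem (Finset.mem_univ i), Finset.card_univ]
    omega
  have hle : (Finset.univ.erase i).card ≤ ∑ j, m j := by
    rw [Finset.card_eq_sum_ones]
    exact (Finset.sum_le_sum fun j _ => hm j).trans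
      (Finset.sum_le_sum_of_subset (Finset.subset_univ _))
  have hφ : ∀ K : ∀ j, Set (H j), (∀ j, IsCompact (K j)) →
      {x : Γ | ∀ j, ev Γ j x ∈ K j}.Finite := fun K hK => by
    refine (H790.finite_inter Γ (isCompact_univ_pi hK)).subset fun x hx => ?_
    exact fun j _ => hx j
  obtain ⟨j, s, K, c', hs, hK, hc', h3⟩ := H793.eng_r Γ ν hν h h' hT.comm₁₂ hT.adj₁ hT.adj₂
    hT.adjV hT.comm₁ hT.comm₂ hT.ne htr D hle hcard hG le_rfl (fun j => ev Γ j) hφ _
    (fun N => hD fun _ => N)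
  obtain ⟨b, hb⟩ : ∃ b : ℕ → ∀ j : {j // j ≠ i}, H j,
      b = fun N (j : {j // j ≠ i}) => (C j.1).b ⟨0, hm j.1⟩ (s N) := ⟨_, rfl⟩
  have hHM : H264.HMSeq (∀ j : {j // j ≠ i}, H j) b := by
    rw [hb]
    exact H739.HMSeq.comp (H739.mau_pi fun j : {j // j ≠ i} => hM j).hmSeq hs.tendsto_atTop
  have he : ∀ N, (fun j => if j ∈ Finset.univ.erase i then (C j).b ⟨0, hm j⟩ (s N) else 1) =
      spl H i (1, b N) := by
    intro N
    funext j
    by_cases hj : j = i
    · subst hj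
      rw [spl_self, if_neg (Finset.notMem_erase _ _)]
    · rw [spl_ne hj, if_pos (Finset.mem_erase.2 ⟨hj, Finset.mem_univ _⟩), hb]
  have hC : (0 : ℝ) < 2 ^ Fintype.card Q * c ^ 2 := by positivity
  obtain ⟨f, hf, hf1⟩ := QT.H264.s2_core hν hF (((π j).comp (ev Γ j)).comp (lf Γ Q false)) (μ j)
    (spl H i) (continuous_spl i) hHM (hK.image (hπ j)) (mul_pos hC hc') fun N => by
    refine le_trans ?_ (QT.H264.ams_mono hF (P := fun x => ev Γ j (lf Γ Q false x) ∈ K)
      (fun x hx => ⟨_, hx, rfl⟩) _)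
    have h4 := h3 N
    rw [he] at h4
    have h5 : ∀ v : Γ, H264.ms (rt Q (pr A B hT.comm₁₂)) (av Q V) ω
        (fun x => ev Γ j (lf Γ Q false x) ∈ K) v =
        2 ^ Fintype.card Q * c ^ 2 * massT V A B ξ v (fun g => ev Γ j g ∈ K) := fun v =>
      ms_eq hT hF hω v fun g => ev Γ j g ∈ K
    simp only [h5]
    rw [integral_const_mul]
    exact mul_le_mul_of_nonneg_left h4 hC.le
  exact ⟨j, f, hf, fun h2 => hf1 (by rw [h2]; rfl)⟩

end gen

end Vale.Agent.P092.QT.NE
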